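import Vale.Agent.P110N.Defs

/-!
# P110: bounded modulus bounds the autocorrelations
-/

set_option autoImplicit false

namespace Vale.Agent.P110N

open Finset Filter

namespace AutoX

theorem geom (L : ℕ) (hL : 0 < L) (ζ : ℂ) (hζ : IsPrimitiveRoot ζ L) (t : ℤ) (ht : |t| < L) :
    ∑ j ∈ range L, (ζ ^ t) ^ j = if t = 0 then (L : ℂ) else 0 := by
  by_cases h : t = 0
  · rw [if_pos h, h]; simp
  · rw [if_neg h]
    have h1 : ζ ^ t ≠ 1 := by
      intro h2
      have h3 := (hζ.zpow_eq_one_iff_dvd t).mp h2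
      exact h (Int.eq_zero_of_abs_lt_dvd h3 ht)
    have h2 : (ζ ^ t) ^ L = 1 := by
      rw [← zpow_natCast, ← zpow_mul, mul_comm, zpow_mul, zpow_natCast, hζ.pow_eq_one, one_zpow]
    rw [geom_sum_eq h1, h2, sub_self, zero_div]

theorem normSq_lit (N : ℕ) (ε : ℕ → ℝ) (z : ℂ) (hz : ‖z‖ = 1) :
    ((‖lit N ε z‖ ^ 2 : ℝ) : ℂ) =
      ∑ a ∈ range N, ∑ b ∈ range N, (ε a : ℂ) * (ε b : ℂ) * z ^ ((a : ℤ) - b) := by
  have hz0 : z ≠ 0 := by
    intro h; rw [h, norm_zero] at hz; exact zero_ne_one hz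
  have hc : (starRingEnd ℂ) z = z⁻¹ := by
    rw [Complex.inv_def, Complex.normSq_eq_norm_sq, hz]; simp
  rw [← Complex.normSq_eq_norm_sq, ← Complex.mul_conj, lit, map_sum, Finset.sum_mul_sum]
  refine Finset.sum_congr rfl fun a _ => Finset.sum_congr rfl fun b _ => ?_
  rw [map_mul, map_pow, hc, Complex.conj_ofReal, zpow_sub₀ hz0, zpow_natCast, zpow_natCast]
  rw [inv_pow]
  field_simp

theorem double (N k : ℕ) (ε : ℕ → ℝ) :
    ∑ a ∈ range N, ∑ b ∈ range N, (if (a : ℤ) - b - k = 0 then ε a * ε b else 0) =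
      cor N ε k := by
  classical
  rw [Finset.sum_comm, cor]
  have h1 : ∀ b ∈ range N, ∑ a ∈ range N, (if (a : ℤ) - b - k = 0 then ε a * ε b else 0) =
      if b < N - k then ε (b + k) * ε b else 0 := by
    intro b hb
    by_cases h : b < N - k
    · rw [if_pos h, Finset.sum_eq_single (b + k)]
      · rw [if_pos (by push_cast; ring)]
      · intro a _ ha
        rw [if_neg]
        intro h2
        apply ha
        omega
      · intro h2
        exact absurd (Finset.mem_range.mpr (by omega)) h2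
    · rw [if_neg h]
      refine Finset.sum_eq_zero fun a ha => ?_
      rw [if_neg]
      intro h2
      have := Finset.mem_range.mp ha
      omega
  rw [Finset.sum_congr rfl h1, ← Finset.sum_filter]
  refine Finset.sum_congr ?_ fun _ _ => rfl
  ext b
  simp only [Finset.mem_filter, Finset.mem_range]
  omega

theorem fourier (N k : ℕ) (ε : ℕ → ℝ) (ζ : ℂ) (hζ : IsPrimitiveRoot ζ (N + k + 1))
    (hn : ‖ζ‖ = 1) :
    ∑ j ∈ range (N + k + 1), ((‖lit N ε (ζ ^ j)‖ ^ 2 : ℝ) : ℂ) * (ζ ^ j) ^ (-(k : ℤ)) =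
      ((N + k + 1 : ℕ) : ℂ) * (cor N ε k : ℂ) := by
  have hζ0 : ζ ≠ 0 := by
    intro h; rw [h, norm_zero] at hn; exact zero_ne_one hn
  have h1 : ∀ j ∈ range (N + k + 1),
      ((‖lit N ε (ζ ^ j)‖ ^ 2 : ℝ) : ℂ) * (ζ ^ j) ^ (-(k : ℤ)) =
      ∑ a ∈ range N, ∑ b ∈ range N, ((ε a : ℂ) * (ε b : ℂ)) * (ζ ^ ((a : ℤ) - b - k)) ^ j := by
    intro j _
    rw [normSq_lit N ε _ (by rw [norm_pow, hn, one_pow]), Finset.sum_mul]
    refine Finset.sum_congr rfl fun a _ => ?_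
    rw [Finset.sum_mul]
    refine Finset.sum_congr rfl fun b _ => ?_
    rw [mul_assoc, ← zpow_add₀ (pow_ne_zero _ hζ0), ← zpow_natCast ζ j, ← zpow_mul,
      ← zpow_natCast (ζ ^ ((a : ℤ) - b - k)) j, ← zpow_mul]
    congr 2
    ring
  rw [Finset.sum_congr rfl h1, Finset.sum_comm]
  have h2 : ∀ a ∈ range N, ∑ j ∈ range (N + k + 1), ∑ b ∈ range N,
      ((ε a : ℂ) * (ε b : ℂ)) * (ζ ^ ((a : ℤ) - b - k)) ^ j =
      ∑ b ∈ range N, ((N + k + 1 : ℕ) : ℂ) *
        ((if (a : ℤ) - b - k = 0 then ε a * ε b else 0 : ℝ) : ℂ) := by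
    intro a ha
    rw [Finset.sum_comm]
    refine Finset.sum_congr rfl fun b hb => ?_
    rw [← Finset.mul_sum, geom (N + k + 1) (by omega) ζ hζ _ (by
      have h3 := Finset.mem_range.mp ha
      have h4 := Finset.mem_range.mp hb
      rw [abs_lt]
      constructor <;> push_cast <;> omega)]
    by_cases h : (a : ℤ) - b - k = 0
    · rw [if_pos h, if_pos h]; push_cast; ring
    · rw [if_neg h, if_neg h]; simp
  rw [Finset.sum_congr rfl h2]
  simp only [← Finset.mul_sum]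
  rw [← double N k ε]
  push_cast
  rfl

theorem main (N : ℕ) (ε : ℕ → ℝ) (hε : IsSign N ε) (E : ℝ)
    (h : ∀ z : ℂ, ‖z‖ = 1 → ‖lit N ε z‖ ^ 2 ≤ N + E) (k : ℕ) (hk : 1 ≤ k) :
    |cor N ε k| ≤ E := by
  set L : ℕ := N + k + 1 with hL
  have hL0 : L ≠ 0 := by omega
  set ζ : ℂ := Complex.exp (2 * Real.pi * Complex.I / L) with hζd
  have hζ : IsPrimitiveRoot ζ L := Complex.isPrimitiveRoot_exp L hL0
  have hn : ‖ζ‖ = 1 := Complex.norm_eq_one_of_pow_eq_one hζ.pow_eq_one hL0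
  have hLr : (0 : ℝ) < L := by exact_mod_cast Nat.pos_of_ne_zero hL0
  -- the three sums
  have s1 := fourier N k ε ζ hζ hn
  have hζ0 : ζ ≠ 0 := by
    intro h'; rw [h', norm_zero] at hn; exact zero_ne_one hn
  have s0 : ∑ j ∈ range L, ‖lit N ε (ζ ^ j)‖ ^ 2 = (L : ℝ) * N := by
    have h1 : ∑ j ∈ range L, ((‖lit N ε (ζ ^ j)‖ ^ 2 : ℝ) : ℂ) = ((L : ℝ) * N : ℝ) := by
      have h2 : ∀ j ∈ range L, ((‖lit N ε (ζ ^ j)‖ ^ 2 : ℝ) : ℂ) =
          ∑ a ∈ range N, ∑ b ∈ range N, ((ε a : ℂ) * (ε b : ℂ)) * (ζ ^ ((a : ℤ) - b)) ^ j := by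
        intro j _
        rw [normSq_lit N ε _ (by rw [norm_pow, hn, one_pow])]
        refine Finset.sum_congr rfl fun a _ => Finset.sum_congr rfl fun b _ => ?_
        rw [← zpow_natCast ζ j, ← zpow_mul, ← zpow_natCast (ζ ^ ((a : ℤ) - b)) j, ← zpow_mul]
        congr 2
        ring
      rw [Finset.sum_congr rfl h2, Finset.sum_comm]
      have h3 : ∀ a ∈ range N, ∑ j ∈ range L, ∑ b ∈ range N,
          ((ε a : ℂ) * (ε b : ℂ)) * (ζ ^ ((a : ℤ) - b)) ^ j = (L : ℂ) := by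
        intro a ha
        rw [Finset.sum_comm, Finset.sum_eq_single a]
        · rw [← Finset.mul_sum, geom L (by omega) ζ hζ _ (by simpa using hLr), if_pos (by ring)]
          rcases hε a (Finset.mem_range.mp ha) with h4 | h4 <;> rw [h4] <;> simp
        · intro b hb hba
          rw [← Finset.mul_sum, geom L (by omega) ζ hζ _ (by
            have h3 := Finset.mem_range.mp ha
            have h4 := Finset.mem_range.mp hb
            rw [abs_lt]
            constructor <;> push_cast <;> omega), if_neg (by omega), mul_zero]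
        · intro h4; exact absurd ha h4
      rw [Finset.sum_congr rfl h3]
      simp [mul_comm]
    exact_mod_cast h1
  have s2 : ∑ j ∈ range L, ((ζ ^ j) ^ (-(k : ℤ))) = 0 := by
    have h2 : ∀ j ∈ range L, (ζ ^ j) ^ (-(k : ℤ)) = (ζ ^ (-(k : ℤ))) ^ j := by
      intro j _
      rw [← zpow_natCast ζ j, ← zpow_mul, ← zpow_natCast (ζ ^ (-(k : ℤ))) j, ← zpow_mul,
        mul_comm]
    rw [Finset.sum_congr rfl h2, geom L (by omega) ζ hζ _ (by
      rw [abs_neg, Nat.abs_cast]; push_cast; omega), if_neg (by omega)]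
  -- real parts
  have r1 : ∑ j ∈ range L, ‖lit N ε (ζ ^ j)‖ ^ 2 * ((ζ ^ j) ^ (-(k : ℤ))).re =
      (L : ℝ) * cor N ε k := by
    have h1 := congrArg Complex.re s1
    rw [Complex.re_sum] at h1
    simp only [Complex.re_ofReal_mul] at h1
    rw [h1]
    have h2 : ((L : ℂ) * (cor N ε k : ℂ)) = (((L : ℝ) * cor N ε k : ℝ) : ℂ) := by push_cast; ring
    have h3 : ((N + k + 1 : ℕ) : ℂ) = (L : ℂ) := rfl
    rw [h3, h2, Complex.ofReal_re]
  have r2 : ∑ j ∈ range L, ((ζ ^ j) ^ (-(k : ℤ))).re = 0 := by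
    have h1 := congrArg Complex.re s2
    rwa [Complex.re_sum, Complex.zero_re] at h1
  have hre : ∀ j, |((ζ ^ j) ^ (-(k : ℤ))).re| ≤ 1 := by
    intro j
    refine (Complex.abs_re_le_norm _).trans (le_of_eq ?_)
    rw [norm_zpow, norm_pow, hn, one_pow, one_zpow]
  have key : ∀ σ : ℝ, σ = 1 ∨ σ = -1 → σ * cor N ε k ≤ E := by
    intro σ hσ
    have h1 : 0 ≤ ∑ j ∈ range L, (N + E - ‖lit N ε (ζ ^ j)‖ ^ 2) *
        (1 + σ * ((ζ ^ j) ^ (-(k : ℤ))).re) := by
      refine Finset.sum_nonneg fun j _ => mul_nonneg ?_ ?_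
      · have := h (ζ ^ j) (by rw [norm_pow, hn, one_pow])
        linarith
      · have h2 := abs_le.mp (hre j)
        rcases hσ with rfl | rfl <;> linarith [h2.1, h2.2]
    have h2 : ∑ j ∈ range L, (N + E - ‖lit N ε (ζ ^ j)‖ ^ 2) *
        (1 + σ * ((ζ ^ j) ^ (-(k : ℤ))).re) =
        (L : ℝ) * (N + E) + (N + E) * σ * ∑ j ∈ range L, ((ζ ^ j) ^ (-(k : ℤ))).re -
          ∑ j ∈ range L, ‖lit N ε (ζ ^ j)‖ ^ 2 -
          σ * ∑ j ∈ range L, ‖lit N ε (ζ ^ j)‖ ^ 2 * ((ζ ^ j) ^ (-(k : ℤ))).re := by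
      have h3 : (L : ℝ) * (N + E) = ∑ _j ∈ range L, ((N : ℝ) + E) := by
        rw [Finset.sum_const, Finset.card_range, nsmul_eq_mul]
      rw [h3, Finset.mul_sum, Finset.mul_sum, ← Finset.sum_add_distrib, ← Finset.sum_sub_distrib,
        ← Finset.sum_sub_distrib]
      refine Finset.sum_congr rfl fun j _ => ?_
      ring
    rw [h2, r2, s0, r1] at h1
    have h4 : 0 ≤ (L : ℝ) * (E - σ * cor N ε k) := by nlinarith
    have h5 := nonneg_of_mul_nonneg_right h4 hLr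
    linarith
  rw [abs_le]
  constructor
  · have := key (-1) (Or.inr rfl)
    linarith
  · have := key 1 (Or.inl rfl)
    linarith

end AutoX

end Vale.Agent.P110N
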