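import Mathlib

/-!
# P110 (partial): Littlewood polynomials near products are not ultraflat
-/

set_option autoImplicit false

namespace Vale.Agent.P110N

open Finset Filter

/-- the polynomial `∑_{k < N} ε_k z^k` -/
noncomputable def lit (N : ℕ) (ε : ℕ → ℝ) (z : ℂ) : ℂ := ∑ k ∈ range N, (ε k : ℂ) * z ^ k

/-- the first `N` entries of `ε` are `1` or `-1`, so `lit N ε` is a Littlewood polynomial -/
def IsSign (N : ℕ) (ε : ℕ → ℝ) : Prop := ∀ k, k < N → ε k = 1 ∨ ε k = -1

/-- the Littlewood polynomials `lit (N n) (ε n)` form an ultraflat sequence -/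
def Ultraflat (N : ℕ → ℕ) (ε : ℕ → ℕ → ℝ) : Prop :=
  Tendsto N atTop atTop ∧ (∀ n, IsSign (N n) (ε n)) ∧
  ∀ η : ℝ, 0 < η → ∀ᶠ n in atTop, ∀ z : ℂ, ‖z‖ = 1 →
    |‖lit (N n) (ε n) z‖ / Real.sqrt (N n) - 1| ≤ η

/-- number of positions `k < N` at which the coefficient `ε_k` differs from the coefficient
`c_{k / m} b_{k % m}` of the product `(∑_{j<m} b_j z^j) (∑_i c_i z^(m i))` -/
noncomputable def dist (N m : ℕ) (ε b c : ℕ → ℝ) : ℕ := by
  classical exact ((range N).filter fun k => ε k ≠ c (k / m) * b (k % m)).card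

/-- aperiodic autocorrelation -/
noncomputable def cor (N : ℕ) (ε : ℕ → ℝ) (k : ℕ) : ℝ := ∑ b ∈ range (N - k), ε (b + k) * ε b

end Vale.Agent.P110N
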