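import Vale.Agent.P110N.Prod

/-!
# P110: Littlewood polynomials near products
-/

set_option autoImplicit false

namespace Vale.Agent.P110N

open Finset Filter

open ProdX in
theorem pr_sign (m r : ℕ) (hm : 1 ≤ m) (b c : ℕ → ℝ) (hb : IsSign m b) (hc : IsSign r c) :
    IsSign (m * r) (pr m b c) := by
  intro k hk
  have h1 : k / m < r := Nat.div_lt_of_lt_mul hk
  have h2 : k % m < m := Nat.mod_lt _ (by omega)
  rw [pr]
  rcases hc _ h1 with h | h <;> rcases hb _ h2 with h' | h' <;> rw [h, h'] <;> norm_num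

theorem sq_one (N : ℕ) (b : ℕ → ℝ) (hb : IsSign N b) (k : ℕ) (hk : k < N) : |b k| = 1 := by
  rcases hb k hk with h | h <;> rw [h] <;> simp

/-- autocorrelations of sign sequences are integers -/
theorem cor_int (N : ℕ) (b : ℕ → ℝ) (hb : IsSign N b) (k : ℕ) : ∃ t : ℤ, cor N b k = t := by
  have h : ∀ n, n < N → ∃ t : ℤ, b n = t := by
    intro n hn
    rcases hb n hn with h | h
    · exact ⟨1, by rw [h]; simp⟩
    · exact ⟨-1, by rw [h]; simp⟩
  have h2 : ∀ n ∈ range (N - k), ∃ t : ℤ, b (n + k) * b n = t := by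
    intro n hn
    have hn' := Finset.mem_range.mp hn
    obtain ⟨s, hs⟩ := h (n + k) (by omega)
    obtain ⟨t, ht⟩ := h n (by omega)
    exact ⟨s * t, by rw [hs, ht]; push_cast; ring⟩
  choose! f hf using h2
  refine ⟨∑ n ∈ range (N - k), f n, ?_⟩
  rw [cor, Finset.sum_congr rfl hf]
  push_cast
  rfl

/-- the arithmetic of the three autocorrelations -/
theorem arith (m r x y τ E : ℝ) (hm : 2 ≤ m) (hr : 1 ≤ r) (hx : x = 0 ∨ 1 ≤ |x|) (hτ : |τ| = 1)
    (h1 : |r * x + τ * y| ≤ E) (h2 : |r * τ + x * y| ≤ E) (h3 : |m * y| ≤ E) :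
    r * m / (m + 1) ≤ E := by
  have hy : m * |y| ≤ E := by rwa [abs_mul, abs_of_pos (by linarith)] at h3
  have hr' : r * m / (m + 1) ≤ r := by
    rw [div_le_iff₀ (by linarith)]
    nlinarith
  rcases hx with h | h
  · rw [h, zero_mul, add_zero, abs_mul, hτ, mul_one, abs_of_pos (by linarith)] at h2
    linarith
  · have h4 : r - |y| ≤ E := by
      have h5 : |r * x| - |τ * y| ≤ |r * x + τ * y| := by
        have := abs_sub_abs_le_abs_sub (r * x) (-(τ * y))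
        rwa [abs_neg, sub_neg_eq_add] at this
      rw [abs_mul, abs_mul, hτ, one_mul, abs_of_pos (show (0 : ℝ) < r by linarith)] at h5
      nlinarith [abs_nonneg x]
    rw [div_le_iff₀ (by linarith)]
    nlinarith [abs_nonneg y]

open ProdX in
/-- the maximum of the modulus as a bound -/
theorem exists_bound (N : ℕ) (ε : ℕ → ℝ) (X : ℝ)
    (hcon : ∀ z : ℂ, ‖z‖ = 1 → ‖lit N ε z‖ ^ 2 < X) :
    ∃ E : ℝ, (∀ z : ℂ, ‖z‖ = 1 → ‖lit N ε z‖ ^ 2 ≤ N + E) ∧ N + E < X := by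
  have hK : IsCompact (Metric.sphere (0 : ℂ) 1) := isCompact_sphere 0 1
  have hne : (Metric.sphere (0 : ℂ) 1).Nonempty := ⟨1, by simp⟩
  have hcont : ContinuousOn (fun z : ℂ => ‖lit N ε z‖ ^ 2) (Metric.sphere (0 : ℂ) 1) := by
    unfold lit
    fun_prop
  obtain ⟨z₁, hz₁, hmax⟩ := hK.exists_isMaxOn hne hcont
  have hz₁' : ‖z₁‖ = 1 := by simpa using hz₁
  refine ⟨‖lit N ε z₁‖ ^ 2 - N, fun z hz => ?_, ?_⟩
  · have h1 : ‖lit N ε z‖ ^ 2 ≤ ‖lit N ε z₁‖ ^ 2 :=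
      hmax (show z ∈ Metric.sphere (0 : ℂ) 1 by simpa using hz)
    linarith
  · have h1 := hcon z₁ hz₁'
    linarith

open ProdX in
theorem main1 (m r : ℕ) (hm : 2 ≤ m) (hr : 1 ≤ r) (ε b c : ℕ → ℝ) (hε : IsSign (m * r) ε)
    (hb : IsSign m b) (hc : IsSign r c) : ∃ z : ℂ, ‖z‖ = 1 ∧
    (1 + 1 / ((m : ℝ) + 1)) * (m * r : ℕ) - 4 * (dist (m * r) m ε b c : ℝ) ≤
      ‖lit (m * r) ε z‖ ^ 2 := by
  by_contra hcon
  push Not at hcon
  set d : ℝ := (dist (m * r) m ε b c : ℝ) with hd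
  have hp := pr_sign m r (by omega) b c hb hc
  have hmr : (2 : ℝ) ≤ m := by exact_mod_cast hm
  have hrr : (1 : ℝ) ≤ r := by exact_mod_cast hr
  obtain ⟨E, hle, hE⟩ := exists_bound (m * r) ε _ hcon
  have h2 : (1 + 1 / ((m : ℝ) + 1)) * (m * r : ℕ) = (m * r : ℕ) + r * m / (m + 1) := by
    push_cast
    field_simp
  rw [h2] at hE
  have key : ∀ k, 1 ≤ k → |cor (m * r) (pr m b c) k| ≤ E + 4 * d := by
    intro k hk
    have h1 := AutoX.main (m * r) ε hε E hle k hk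
    have h2 := cor_dist (m * r) m k ε b c hε hp
    linarith
  have k1 := key 1 le_rfl
  have k2 := key (m - 1) (by omega)
  have k3 := key m (by omega)
  rw [cor_1 m r (by omega) hr b c hc] at k1
  rw [cor_m1 m r (by omega) hr b c hc] at k2
  rw [cor_m m r b c hb] at k3
  have hτ : |b 0 * b (m - 1)| = 1 := by
    rw [abs_mul, sq_one m b hb 0 (by omega), sq_one m b hb (m - 1) (by omega), mul_one]
  have hx : cor m b 1 = 0 ∨ 1 ≤ |cor m b 1| := by
    obtain ⟨t, ht⟩ := cor_int m b hb 1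
    rw [ht]
    by_cases h : t = 0
    · left; rw [h]; simp
    · right
      have := Int.one_le_abs h
      exact_mod_cast this
  have := arith m r (cor m b 1) (cor r c 1) (b 0 * b (m - 1)) (E + 4 * d) hmr hrr hx hτ k1 k2 k3
  linarith

open ProdX in
theorem main2 (m r : ℕ) (hm : 1 ≤ m) (hr : 2 ≤ r) (ε b c : ℕ → ℝ) (hε : IsSign (m * r) ε)
    (hb : IsSign m b) (hc : IsSign r c) : ∃ z : ℂ, ‖z‖ = 1 ∧
    (1 + 1 / (r : ℝ)) * (m * r : ℕ) - 4 * (dist (m * r) m ε b c : ℝ) ≤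
      ‖lit (m * r) ε z‖ ^ 2 := by
  by_contra hcon
  push Not at hcon
  set d : ℝ := (dist (m * r) m ε b c : ℝ) with hd
  have hp := pr_sign m r hm b c hb hc
  have hmr : (1 : ℝ) ≤ m := by exact_mod_cast hm
  have hrr : (2 : ℝ) ≤ r := by exact_mod_cast hr
  obtain ⟨E, hle, hE⟩ := exists_bound (m * r) ε _ hcon
  have h2 : (1 + 1 / (r : ℝ)) * (m * r : ℕ) = (m * r : ℕ) + m := by
    push_cast
    field_simp
  rw [h2] at hE
  have hpos : 1 ≤ m * (r - 1) := Nat.mul_pos hm (by omega)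
  have h1 := AutoX.main (m * r) ε hε E hle (m * (r - 1)) hpos
  have h3 := cor_dist (m * r) m (m * (r - 1)) ε b c hε hp
  rw [cor_last m r (by omega) b c hb, abs_mul, abs_mul, sq_one r c hc (r - 1) (by omega),
    sq_one r c hc 0 (by omega), mul_one, mul_one, abs_of_pos (by linarith)] at h3
  linarith

/-- no ultraflat sequence near products with a bounded factor -/
theorem not_ultraflat (K : ℕ) (N : ℕ → ℕ) (ε : ℕ → ℕ → ℝ) (hU : Ultraflat N ε) :
    ∀ᶠ n in atTop, ∀ (m r : ℕ) (b c : ℕ → ℝ), N n = m * r →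
      (2 ≤ m ∧ m ≤ K ∧ 1 ≤ r) ∨ (2 ≤ r ∧ r ≤ K ∧ 1 ≤ m) → IsSign m b → IsSign r c →
      N n < 8 * (K + 1) * dist (N n) m (ε n) b c := by
  obtain ⟨hN, hS, hflat⟩ := hU
  have hK : (0 : ℝ) < (K : ℝ) + 1 := by positivity
  set η : ℝ := 1 / (8 * ((K : ℝ) + 1)) with hη
  have hη0 : 0 < η := by positivity
  filter_upwards [hflat η hη0, hN.eventually_gt_atTop 0] with n h1 hpos m r b c hmr hcase hb hc
  by_contra hlt
  push Not at hlt
  have hNr : (0 : ℝ) < (N n : ℝ) := by exact_mod_cast hpos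
  have hd : 4 * (dist (N n) m (ε n) b c : ℝ) ≤ (N n : ℝ) / (2 * ((K : ℝ) + 1)) := by
    rw [le_div_iff₀ (by positivity)]
    have h2 : ((8 * (K + 1) * dist (N n) m (ε n) b c : ℕ) : ℝ) ≤ (N n : ℝ) := by
      exact_mod_cast hlt
    push_cast at h2
    linarith
  have key : ∃ z : ℂ, ‖z‖ = 1 ∧ (1 + 1 / ((K : ℝ) + 1)) * (N n : ℝ) -
      4 * (dist (N n) m (ε n) b c : ℝ) ≤ ‖lit (N n) (ε n) z‖ ^ 2 := by
    have hSn := hS n
    rcases hcase with ⟨c1, c2, c3⟩ | ⟨c1, c2, c3⟩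
    · rw [hmr] at hSn ⊢
      obtain ⟨z, hz, hz2⟩ := main1 m r c1 c3 (ε n) b c hSn hb hc
      refine ⟨z, hz, le_trans ?_ hz2⟩
      have h3 : 1 / ((K : ℝ) + 1) ≤ 1 / ((m : ℝ) + 1) := by
        refine one_div_le_one_div_of_le (by positivity) ?_
        have : (m : ℝ) ≤ K := by exact_mod_cast c2
        linarith
      have h4 : (0 : ℝ) ≤ ((m * r : ℕ) : ℝ) := Nat.cast_nonneg _
      nlinarith
    · rw [hmr] at hSn ⊢
      obtain ⟨z, hz, hz2⟩ := main2 m r c3 c1 (ε n) b c hSn hb hc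
      refine ⟨z, hz, le_trans ?_ hz2⟩
      have h3 : 1 / ((K : ℝ) + 1) ≤ 1 / (r : ℝ) := by
        refine one_div_le_one_div_of_le (by positivity) ?_
        have : (r : ℝ) ≤ K := by exact_mod_cast c2
        linarith
      have h4 : (0 : ℝ) ≤ ((m * r : ℕ) : ℝ) := Nat.cast_nonneg _
      nlinarith
  obtain ⟨z, hz, hz2⟩ := key
  have h2 := (abs_le.mp (h1 z hz)).2
  have hs : 0 < Real.sqrt (N n) := Real.sqrt_pos.mpr hNr
  have h3 : ‖lit (N n) (ε n) z‖ ≤ (1 + η) * Real.sqrt (N n) := by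
    rw [← div_le_iff₀ hs]; linarith
  have h4 : ‖lit (N n) (ε n) z‖ ^ 2 ≤ (1 + η) ^ 2 * N n := by
    calc ‖lit (N n) (ε n) z‖ ^ 2 ≤ ((1 + η) * Real.sqrt (N n)) ^ 2 :=
          pow_le_pow_left₀ (norm_nonneg _) h3 2
      _ = _ := by rw [mul_pow, Real.sq_sqrt hNr.le]
  have h5 : (1 + 1 / ((K : ℝ) + 1)) * (N n : ℝ) - (N n : ℝ) / (2 * ((K : ℝ) + 1)) ≤
      (1 + η) ^ 2 * N n := by linarith
  have h6 : (1 + 1 / ((K : ℝ) + 1)) * (N n : ℝ) - (N n : ℝ) / (2 * ((K : ℝ) + 1)) =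
      (1 + 4 * η) * N n := by
    rw [hη]
    field_simp
    ring
  rw [h6] at h5
  have h7 : 1 + 4 * η ≤ (1 + η) ^ 2 := le_of_mul_le_mul_right h5 hNr
  have h8 : η ≤ 1 / 8 := by
    rw [hη]
    refine one_div_le_one_div_of_le (by norm_num) ?_
    have : (0 : ℝ) ≤ K := Nat.cast_nonneg _
    linarith
  nlinarith

end Vale.Agent.P110N
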