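import Vale.Agent.P110N.Auto

/-!
# P110: autocorrelations of products
-/

set_option autoImplicit false

namespace Vale.Agent.P110N

open Finset Filter

namespace ProdX

/-- product sequence -/
noncomputable def pr (m : ℕ) (b c : ℕ → ℝ) (k : ℕ) : ℝ := c (k / m) * b (k % m)

theorem pr_at (m : ℕ) (b c : ℕ → ℝ) (i j : ℕ) (hj : j < m) :
    pr m b c (m * i + j) = c i * b j := by
  have hm : 0 < m := by omega
  rw [pr, Nat.mul_add_div hm, Nat.div_eq_of_lt hj, add_zero, Nat.mul_add_mod,
    Nat.mod_eq_of_lt hj]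

theorem blocks (m s : ℕ) (f : ℕ → ℝ) :
    ∑ n ∈ range (m * s), f n = ∑ i ∈ range s, ∑ j ∈ range m, f (m * i + j) := by
  induction s with
  | zero => simp
  | succ s ih => rw [Nat.mul_succ, Finset.sum_range_add, ih, Finset.sum_range_succ]

/-- `C_m` -/
theorem cor_m (m r : ℕ) (b c : ℕ → ℝ) (hb : IsSign m b) :
    cor (m * r) (pr m b c) m = m * cor r c 1 := by
  have h1 : m * r - m = m * (r - 1) := by rw [Nat.mul_sub, mul_one]
  rw [cor, h1, blocks, cor, Finset.mul_sum]
  refine Finset.sum_congr rfl fun i _ => ?_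
  have h2 : ∀ j ∈ range m, pr m b c (m * i + j + m) * pr m b c (m * i + j) = c (i + 1) * c i := by
    intro j hj
    have hj' := Finset.mem_range.mp hj
    rw [show m * i + j + m = m * (i + 1) + j by ring, pr_at m b c _ _ hj', pr_at m b c _ _ hj']
    rcases hb j hj' with h | h <;> rw [h] <;> ring
  rw [Finset.sum_congr rfl h2, Finset.sum_const, Finset.card_range, nsmul_eq_mul]

/-- `C_1` -/
theorem cor_1 (m r : ℕ) (hm : 1 ≤ m) (hr : 1 ≤ r) (b c : ℕ → ℝ) (hc : IsSign r c) :
    cor (m * r) (pr m b c) 1 = r * cor m b 1 + b 0 * b (m - 1) * cor r c 1 := by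
  obtain ⟨n, rfl⟩ : ∃ n, m = n + 1 := ⟨m - 1, by omega⟩
  obtain ⟨s, rfl⟩ : ∃ s, r = s + 1 := ⟨r - 1, by omega⟩
  have h1 : (n + 1) * (s + 1) - 1 = (n + 1) * s + n := by
    rw [Nat.mul_succ]; omega
  have hin : ∀ i, i < s + 1 → ∑ j ∈ range n, pr (n + 1) b c ((n + 1) * i + j + 1) *
      pr (n + 1) b c ((n + 1) * i + j) = cor (n + 1) b 1 := by
    intro i hi
    rw [cor, Nat.add_sub_cancel]
    refine Finset.sum_congr rfl fun j hj => ?_
    have hj' := Finset.mem_range.mp hj
    rw [show (n + 1) * i + j + 1 = (n + 1) * i + (j + 1) by ring,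
      pr_at _ b c _ _ (by omega), pr_at _ b c _ _ (by omega)]
    rcases hc i hi with h | h <;> rw [h] <;> ring
  rw [cor, h1, Finset.sum_range_add, blocks, hin s (by omega)]
  have h2 : ∀ i ∈ range s, ∑ j ∈ range (n + 1), pr (n + 1) b c ((n + 1) * i + j + 1) *
      pr (n + 1) b c ((n + 1) * i + j) = cor (n + 1) b 1 + b 0 * b n * (c (i + 1) * c i) := by
    intro i hi
    have hi' := Finset.mem_range.mp hi
    rw [Finset.sum_range_succ, hin i (by omega)]
    rw [show (n + 1) * i + n + 1 = (n + 1) * (i + 1) + 0 by ring,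
      pr_at _ b c _ _ (by omega), pr_at _ b c _ _ (by omega)]
    ring
  rw [Finset.sum_congr rfl h2, Finset.sum_add_distrib, ← Finset.mul_sum, Finset.sum_const,
    Finset.card_range, nsmul_eq_mul]
  have h3 : cor (s + 1) c 1 = ∑ i ∈ range s, c (i + 1) * c i := by
    rw [cor, Nat.add_sub_cancel]
  rw [h3, Nat.add_sub_cancel]
  push_cast
  ring

/-- `C_{m-1}` -/
theorem cor_m1 (m r : ℕ) (hm : 1 ≤ m) (hr : 1 ≤ r) (b c : ℕ → ℝ) (hc : IsSign r c) :
    cor (m * r) (pr m b c) (m - 1) = r * (b 0 * b (m - 1)) + cor m b 1 * cor r c 1 := by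
  obtain ⟨n, rfl⟩ : ∃ n, m = n + 1 := ⟨m - 1, by omega⟩
  obtain ⟨s, rfl⟩ : ∃ s, r = s + 1 := ⟨r - 1, by omega⟩
  have h1 : (n + 1) * (s + 1) - (n + 1 - 1) = (n + 1) * s + 1 := by
    rw [Nat.mul_succ]; omega
  have h0 : ∀ i, i < s + 1 → pr (n + 1) b c ((n + 1) * i + 0 + n) *
      pr (n + 1) b c ((n + 1) * i + 0) = b 0 * b n := by
    intro i hi
    rw [show (n + 1) * i + 0 + n = (n + 1) * i + n by ring,
      pr_at _ b c _ _ (by omega), pr_at _ b c _ _ (by omega)]
    rcases hc i hi with h | h <;> rw [h] <;> ring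
  rw [cor, h1, Nat.add_sub_cancel, Finset.sum_range_succ, blocks]
  have h2 : ∀ i ∈ range s, ∑ j ∈ range (n + 1), pr (n + 1) b c ((n + 1) * i + j + n) *
      pr (n + 1) b c ((n + 1) * i + j) = b 0 * b n + cor (n + 1) b 1 * (c (i + 1) * c i) := by
    intro i hi
    have hi' := Finset.mem_range.mp hi
    rw [Finset.sum_range_succ', h0 i (by omega), add_comm]
    congr 1
    rw [cor, Nat.add_sub_cancel, Finset.sum_mul]
    refine Finset.sum_congr rfl fun j hj => ?_
    have hj' := Finset.mem_range.mp hj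
    rw [show (n + 1) * i + (j + 1) + n = (n + 1) * (i + 1) + j by ring,
      pr_at _ b c _ _ (by omega), pr_at _ b c _ _ (by omega)]
    ring
  have h4 := h0 s (by omega)
  rw [add_zero] at h4
  rw [h4, Finset.sum_congr rfl h2, Finset.sum_add_distrib, ← Finset.mul_sum, Finset.sum_const,
    Finset.card_range, nsmul_eq_mul]
  have h3 : cor (s + 1) c 1 = ∑ i ∈ range s, c (i + 1) * c i := by
    rw [cor, Nat.add_sub_cancel]
  rw [h3, ← Finset.mul_sum]
  push_cast
  ring

/-- `C_{m(r-1)}` -/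
theorem cor_last (m r : ℕ) (hr : 1 ≤ r) (b c : ℕ → ℝ) (hb : IsSign m b) :
    cor (m * r) (pr m b c) (m * (r - 1)) = m * (c (r - 1) * c 0) := by
  obtain ⟨s, rfl⟩ : ∃ s, r = s + 1 := ⟨r - 1, by omega⟩
  have h1 : m * (s + 1) - m * (s + 1 - 1) = m * 1 := by
    rw [Nat.add_sub_cancel, Nat.mul_succ]; omega
  rw [cor, h1, blocks, Finset.sum_range_one, Nat.add_sub_cancel]
  have h2 : ∀ j ∈ range m, pr m b c (m * 0 + j + m * s) * pr m b c (m * 0 + j) =
      c s * c 0 := by
    intro j hj
    have hj' := Finset.mem_range.mp hj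
    rw [show m * 0 + j + m * s = m * s + j by ring, pr_at m b c _ _ hj', pr_at m b c _ _ hj']
    rcases hb j hj' with h | h <;> rw [h] <;> ring
  rw [Finset.sum_congr rfl h2, Finset.sum_const, Finset.card_range, nsmul_eq_mul]

/-- changing `d` coefficients changes the autocorrelations by at most `4 d` -/
theorem cor_dist (N m k : ℕ) (ε b c : ℕ → ℝ) (hε : IsSign N ε) (hp : IsSign N (pr m b c)) :
    |cor N (pr m b c) k| ≤ |cor N ε k| + 4 * (dist N m ε b c : ℝ) := by
  classical
  set p := pr m b c with hpd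
  have hd : ∑ n ∈ range N, |ε n - p n| ≤ 2 * (dist N m ε b c : ℝ) := by
    have h1 : ∀ n ∈ range N, |ε n - p n| ≤
        if ε n ≠ c (n / m) * b (n % m) then (2 : ℝ) else 0 := by
      intro n hn
      have hn' := Finset.mem_range.mp hn
      by_cases h : ε n ≠ c (n / m) * b (n % m)
      · rw [if_pos h]
        rcases hε n hn' with h1 | h1 <;> rcases hp n hn' with h2 | h2 <;> rw [h1, h2] <;>
          norm_num
      · rw [if_neg h]
        push Not at h
        have h2 : p n = c (n / m) * b (n % m) := rfl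
        rw [h2, h, sub_self, abs_zero]
    refine (Finset.sum_le_sum h1).trans (le_of_eq ?_)
    rw [← Finset.sum_filter, Finset.sum_const, nsmul_eq_mul, mul_comm, dist]
  have hterm : ∀ n ∈ range (N - k), |p (n + k) * p n - ε (n + k) * ε n| ≤
      |ε (n + k) - p (n + k)| + |ε n - p n| := by
    intro n hn
    have hn' := Finset.mem_range.mp hn
    have a1 : |p n| = 1 := by
      rcases hp n (by omega) with h | h <;> rw [h] <;> simp
    have a2 : |ε (n + k)| = 1 := by
      rcases hε (n + k) (by omega) with h | h <;> rw [h] <;> simp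
    have e : p (n + k) * p n - ε (n + k) * ε n =
        (p (n + k) - ε (n + k)) * p n + ε (n + k) * (p n - ε n) := by ring
    rw [e]
    refine (abs_add_le _ _).trans ?_
    rw [abs_mul, abs_mul, a1, a2, mul_one, one_mul, abs_sub_comm (p (n + k)),
      abs_sub_comm (p n)]
  have h3 : |cor N p k - cor N ε k| ≤ 4 * (dist N m ε b c : ℝ) := by
    rw [cor, cor, ← Finset.sum_sub_distrib]
    refine (Finset.abs_sum_le_sum_abs _ _).trans ((Finset.sum_le_sum hterm).trans ?_)
    rw [Finset.sum_add_distrib]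
    have h4 : ∑ n ∈ range (N - k), |ε n - p n| ≤ ∑ n ∈ range N, |ε n - p n| :=
      Finset.sum_le_sum_of_subset_of_nonneg (Finset.range_subset_range.mpr (Nat.sub_le _ _))
        fun _ _ _ => abs_nonneg _
    have h5 : ∑ n ∈ range (N - k), |ε (n + k) - p (n + k)| ≤ ∑ n ∈ range N, |ε n - p n| := by
      rw [← Finset.sum_image (f := fun n => |ε n - p n|) (g := fun n => n + k)
        (s := range (N - k)) (fun x _ y _ hxy => by simpa using hxy)]
      refine Finset.sum_le_sum_of_subset_of_nonneg ?_ fun _ _ _ => abs_nonneg _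
      intro x hx
      obtain ⟨y, hy, rfl⟩ := Finset.mem_image.mp hx
      have := Finset.mem_range.mp hy
      exact Finset.mem_range.mpr (by omega)
    linarith
  have h6 : cor N p k = (cor N p k - cor N ε k) + cor N ε k := by ring
  rw [h6]
  refine (abs_add_le _ _).trans ?_
  linarith

end ProdX

end Vale.Agent.P110N
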